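import Mathlib.Analysis.InnerProductSpace.Basic
import Mathlib.Data.Finsupp.Basic
import Mathlib.Tactic

/-! One-step minimisation and window inequality (births only). -/

namespace Vale.Agent.P141.H315

open scoped BigOperators

/-- The sum of the births. -/
noncomputable def bsum {ι V : Type*} [AddCommGroup V] [Module ℝ V] (a : ι → V) (m : ι →₀ ℝ) : V :=
  m.sum fun i c => c • a i

/-- The weighted mass of the births. -/
noncomputable def bcost {ι : Type*} (w : ι → ℝ) (m : ι →₀ ℝ) : ℝ := m.sum fun i c => |c| * w i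

section lin

variable {ι V : Type*} [AddCommGroup V] [Module ℝ V]

theorem bsum_add (a : ι → V) (m m' : ι →₀ ℝ) : bsum a (m + m') = bsum a m + bsum a m' := by
  classical
  unfold bsum
  exact Finsupp.sum_add_index' (fun i => zero_smul ℝ _) (fun i b c => add_smul b c _)

theorem bsum_single (a : ι → V) (i : ι) (c : ℝ) : bsum a (Finsupp.single i c) = c • a i := by
  unfold bsum
  exact Finsupp.sum_single_index (zero_smul ℝ _)

@[simp] theorem bsum_zero (a : ι → V) : bsum a (0 : ι →₀ ℝ) = 0 := by
  unfold bsum; exact Finsupp.sum_zero_index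

theorem map_bsum {V' : Type*} [AddCommGroup V'] [Module ℝ V'] (T : V →ₗ[ℝ] V') (a : ι → V)
    (m : ι →₀ ℝ) : T (bsum a m) = bsum (fun i => T (a i)) m := by
  unfold bsum Finsupp.sum
  rw [map_sum]
  exact Finset.sum_congr rfl fun i _ => by rw [map_smul]

end lin

variable {V : Type*} [NormedAddCommGroup V] [InnerProductSpace ℝ V] {ι : Type*}

@[simp] theorem bcost_zero (w : ι → ℝ) : bcost w (0 : ι →₀ ℝ) = 0 := by
  unfold bcost; exact Finsupp.sum_zero_index

theorem bcost_nonneg {w : ι → ℝ} (hw : ∀ i, 0 ≤ w i) (m : ι →₀ ℝ) : 0 ≤ bcost w m := by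
  unfold bcost
  exact Finset.sum_nonneg fun i _ => mul_nonneg (abs_nonneg _) (hw i)

theorem bcost_single (w : ι → ℝ) (i : ι) (c : ℝ) :
    bcost w (Finsupp.single i c) = |c| * w i := by
  unfold bcost
  exact Finsupp.sum_single_index (by simp)

theorem bcost_add_le {w : ι → ℝ} (hw : ∀ i, 0 ≤ w i) (m m' : ι →₀ ℝ) :
    bcost w (m + m') ≤ bcost w m + bcost w m' := by
  classical
  unfold bcost
  set s := m.support ∪ m'.support with hs
  have h1 : (m + m').sum (fun i c => |c| * w i) = ∑ i ∈ s, |(m + m') i| * w i :=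
    Finsupp.sum_of_support_subset _ Finsupp.support_add _ (by simp)
  have h2 : m.sum (fun i c => |c| * w i) = ∑ i ∈ s, |m i| * w i :=
    Finsupp.sum_of_support_subset _ Finset.subset_union_left _ (by simp)
  have h3 : m'.sum (fun i c => |c| * w i) = ∑ i ∈ s, |m' i| * w i :=
    Finsupp.sum_of_support_subset _ Finset.subset_union_right _ (by simp)
  rw [h1, h2, h3, ← Finset.sum_add_distrib]
  refine Finset.sum_le_sum fun i _ => ?_
  rw [← add_mul]
  exact mul_le_mul_of_nonneg_right (by simpa using abs_add_le (m i) (m' i)) (hw i)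

/-- The pairing with the births is at most the weighted mass, if the test vector is uniform. -/
theorem abs_inner_bsum_le {a : ι → V} {w : ι → ℝ} {G : V}
    (hG : ∀ i, |inner ℝ G (a i)| ≤ w i) (m : ι →₀ ℝ) : |inner ℝ G (bsum a m)| ≤ bcost w m := by
  unfold bsum bcost Finsupp.sum
  rw [inner_sum]
  refine (Finset.abs_sum_le_sum_abs _ _).trans (Finset.sum_le_sum fun i _ => ?_)
  rw [inner_smul_right, abs_mul]
  exact mul_le_mul_of_nonneg_left (hG i) (abs_nonneg _)

/-- **One-step lemma.** Finitely many births make `G` uniform, and the energy drop pays for them. -/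
theorem one_step (a : ι → V) (w : ι → ℝ) (β : ℝ) (hβ : 0 < β) (hw : ∀ i, 0 ≤ w i)
    (hb : ∀ i, β * ‖a i‖ ^ 2 ≤ w i ^ 2) (G : V) :
    ∃ m : ι →₀ ℝ, (∀ i, |inner ℝ (G - bsum a m) (a i)| ≤ w i) ∧
      ‖G - bsum a m‖ ^ 2 + bcost w m ≤ ‖G‖ ^ 2 := by
  classical
  have key : ∀ n : ℕ, ∀ m : ι →₀ ℝ, ‖G - bsum a m‖ ^ 2 + bcost w m ≤ n * (β / 4) →
      ∃ m' : ι →₀ ℝ, (∀ i, |inner ℝ (G - bsum a m') (a i)| ≤ w i) ∧
        ‖G - bsum a m'‖ ^ 2 + bcost w m' ≤ ‖G - bsum a m‖ ^ 2 + bcost w m := by
    intro n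
    induction n with
    | zero =>
      intro m hm
      refine ⟨m, fun i => ?_, le_rfl⟩
      have h0 : ‖G - bsum a m‖ ^ 2 ≤ 0 := by
        have := bcost_nonneg hw m
        simp only [Nat.cast_zero, zero_mul] at hm
        linarith
      have h1 : G - bsum a m = 0 := by
        have : ‖G - bsum a m‖ = 0 := by nlinarith [norm_nonneg (G - bsum a m)]
        exact norm_eq_zero.mp this
      rw [h1, inner_zero_left, abs_zero]
      exact hw i
    | succ n ih =>
      intro m hm
      by_cases hgood : ∀ i, |inner ℝ (G - bsum a m) (a i)| ≤ w i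
      · exact ⟨m, hgood, le_rfl⟩
      · push Not at hgood
        obtain ⟨i, hi⟩ := hgood
        set H := G - bsum a m with hH
        set t := inner ℝ H (a i) with ht
        have hai : 0 < ‖a i‖ := by
          rcases (norm_nonneg (a i)).eq_or_lt with h | h
          · exfalso
            have h0 : a i = 0 := norm_eq_zero.mp h.symm
            have : t = 0 := by rw [ht, h0, inner_zero_right]
            rw [this, abs_zero] at hi
            exact absurd (hw i) (not_le.mpr hi)
          · exact h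
        -- the coefficient
        set c : ℝ := w i / (2 * ‖a i‖ ^ 2) with hc
        have hc0 : 0 ≤ c := div_nonneg (hw i) (by positivity)
        have hca : 2 * c * ‖a i‖ ^ 2 = w i := by rw [hc]; field_simp
        obtain ⟨s, hs1, hs2⟩ : ∃ s : ℝ, |s| = 1 ∧ s * t = |t| := by
          rcases le_or_gt 0 t with h | h
          · exact ⟨1, by simp, by rw [abs_of_nonneg h, one_mul]⟩
          · exact ⟨-1, by simp, by rw [abs_of_neg h]; ring⟩
        have hss : s ^ 2 = 1 := by rw [← sq_abs, hs1]; norm_num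
        set m' := m + Finsupp.single i (s * c) with hm'
        have hG' : G - bsum a m' = H - (s * c) • a i := by
          rw [hm', bsum_add, bsum_single, hH]; abel
        have hnorm : ‖G - bsum a m'‖ ^ 2 = ‖H‖ ^ 2 - 2 * (c * |t|) + c ^ 2 * ‖a i‖ ^ 2 := by
          rw [hG', norm_sub_sq_real, inner_smul_right, norm_smul, mul_pow, Real.norm_eq_abs, sq_abs,
            ← hs2, ← ht]
          have : (s * c) ^ 2 = c ^ 2 := by rw [mul_pow, hss, one_mul]
          rw [this]; ring
        have hcost : bcost w m' ≤ bcost w m + c * w i := by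
          refine (bcost_add_le hw _ _).trans ?_
          rw [bcost_single, abs_mul, hs1, one_mul, abs_of_nonneg hc0]
        have hdrop : ‖G - bsum a m'‖ ^ 2 + bcost w m' ≤ ‖H‖ ^ 2 + bcost w m - β / 4 := by
          have h1 : c * w i ≤ c * |t| := mul_le_mul_of_nonneg_left hi.le hc0
          have h2 : c ^ 2 * ‖a i‖ ^ 2 = c * w i / 2 := by rw [← hca]; ring
          have h3 : β / 2 ≤ c * w i := by
            have : β / 2 * (‖a i‖ ^ 2) ≤ c * w i * ‖a i‖ ^ 2 := by
              have h4 : c * w i * ‖a i‖ ^ 2 = w i ^ 2 / 2 := by rw [← hca]; ring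
              rw [h4]; linarith [hb i]
            exact le_of_mul_le_mul_right this (by positivity)
          linarith
        have hn : ‖G - bsum a m'‖ ^ 2 + bcost w m' ≤ n * (β / 4) := by
          push_cast at hm
          linarith
        obtain ⟨m'', h1, h2⟩ := ih m' hn
        exact ⟨m'', h1, by linarith⟩
  obtain ⟨n, hn⟩ := exists_nat_ge (‖G‖ ^ 2 / (β / 4))
  obtain ⟨m, h1, h2⟩ := key n 0 (by
    have : ‖G‖ ^ 2 ≤ n * (β / 4) := by rwa [div_le_iff₀ (by positivity)] at hn
    simpa using this)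
  exact ⟨m, h1, by simpa using h2⟩

/-- **Window inequality.** If `l = g - d`, `l` is uniform against the births `d` up to their mass
`c`, and the energy drop pays for `c`, then the movement is at most three energy drops. -/
theorem window_sq_le {g l d : V} {c : ℝ} (hd : g = l + d) (h1 : |inner ℝ l d| ≤ c)
    (h2 : ‖l‖ ^ 2 + c ≤ ‖g‖ ^ 2) : ‖g - l‖ ^ 2 ≤ 3 * (‖g‖ ^ 2 - ‖l‖ ^ 2) := by
  have h3 : g - l = d := by rw [hd]; abel
  have h4 : ‖g‖ ^ 2 = ‖l‖ ^ 2 + 2 * inner ℝ l d + ‖d‖ ^ 2 := by rw [hd, norm_add_sq_real]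
  have h5 := (abs_le.mp h1).1
  rw [h3]
  nlinarith

end Vale.Agent.P141.H315
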