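import Vale.Agent.P141.H315.OneStep
import Mathlib.Analysis.InnerProductSpace.PiL2

/-! Births-only process on a tree of cubes (one face): uniformity at all scales, energy
accounting, window inequality. -/

namespace Vale.Agent.P141.H315

open scoped BigOperators

/-- Nested cubes: `cube k x` is the scale `k` cube of the point `x`. -/
structure Grid (X : Type*) where
  cube : ℕ → X → Finset X
  mem : ∀ k x, x ∈ cube k x
  eq_of_mem : ∀ k x y, y ∈ cube k x → cube k y = cube k x
  sub : ∀ k x, cube k x ⊆ cube (k + 1) x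

/-- Unnormalised pairing on a finite set. -/
def dot {X : Type*} (Q : Finset X) (f g : X → ℝ) : ℝ := ∑ x ∈ Q, f x * g x

section dot

variable {X : Type*}

theorem dot_self_nonneg (Q : Finset X) (f : X → ℝ) : 0 ≤ dot Q f f :=
  Finset.sum_nonneg fun _ _ => mul_self_nonneg _

theorem dot_comm (Q : Finset X) (f g : X → ℝ) : dot Q f g = dot Q g f :=
  Finset.sum_congr rfl fun _ _ => mul_comm _ _

theorem dot_add_left (Q : Finset X) (f g h : X → ℝ) : dot Q (f + g) h = dot Q f h + dot Q g h := by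
  unfold dot
  rw [← Finset.sum_add_distrib]
  exact Finset.sum_congr rfl fun x _ => by simp [add_mul]

theorem dot_add_right (Q : Finset X) (f g h : X → ℝ) : dot Q f (g + h) = dot Q f g + dot Q f h := by
  rw [dot_comm, dot_add_left, dot_comm Q g, dot_comm Q h]

theorem dot_sub_left (Q : Finset X) (f g h : X → ℝ) : dot Q (f - g) h = dot Q f h - dot Q g h := by
  unfold dot
  rw [← Finset.sum_sub_distrib]
  exact Finset.sum_congr rfl fun x _ => by simp [sub_mul]

theorem dot_congr {Q : Finset X} {f f' g g' : X → ℝ} (hf : ∀ x ∈ Q, f x = f' x)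
    (hg : ∀ x ∈ Q, g x = g' x) : dot Q f g = dot Q f' g' :=
  Finset.sum_congr rfl fun x hx => by rw [hf x hx, hg x hx]

/-- Restriction to a finite set as a Euclidean vector. -/
noncomputable def toE (Q : Finset X) : (X → ℝ) →ₗ[ℝ] EuclideanSpace ℝ Q where
  toFun f := WithLp.toLp 2 (fun x => f x)
  map_add' f g := by ext x; simp
  map_smul' c f := by ext x; simp

theorem inner_toE (Q : Finset X) (f g : X → ℝ) : inner ℝ (toE Q f) (toE Q g) = dot Q f g := by
  unfold toE dot
  rw [PiLp.inner_apply, ← Finset.sum_coe_sort Q (fun x => f x * g x)]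
  refine Finset.sum_congr rfl fun x _ => ?_
  simp [mul_comm]

theorem norm_toE_sq (Q : Finset X) (f : X → ℝ) : ‖toE Q f‖ ^ 2 = dot Q f f := by
  rw [← real_inner_self_eq_norm_sq, inner_toE]

end dot

variable {X : Type*}

/-- A weighted system of atoms on the cubes of a grid. -/
structure Sys (g : Grid X) (ι : Type*) where
  /-- the atoms -/
  a : ι → X → ℝ
  /-- the weight of an atom on a cube -/
  W : Finset X → ι → ℝ
  W_nonneg : ∀ Q i, 0 ≤ W Q i
  nondeg : ∀ k x, ∃ β : ℝ, 0 < β ∧ ∀ i, β * dot (g.cube k x) (a i) (a i) ≤ W (g.cube k x) i ^ 2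
  inherit : ∀ k x i, ∀ G : X → ℝ,
    (∀ y ∈ g.cube (k + 1) x, |dot (g.cube k y) G (a i)| ≤ W (g.cube k y) i) →
      |dot (g.cube (k + 1) x) G (a i)| ≤ W (g.cube (k + 1) x) i

variable {ι : Type*}

/-- weighted mass of the births on a cube -/
noncomputable def bW {g : Grid X} (S : Sys g ι) (Q : Finset X) (m : ι →₀ ℝ) : ℝ :=
  bcost (S.W Q) m

/-- the births as a function -/
noncomputable def bF {g : Grid X} (S : Sys g ι) (m : ι →₀ ℝ) : X → ℝ := bsum S.a m

theorem bW_nonneg {g : Grid X} (S : Sys g ι) (Q : Finset X) (m : ι →₀ ℝ) : 0 ≤ bW S Q m :=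
  bcost_nonneg (fun _ => S.W_nonneg _ _) m

/-- One step on one cube. -/
theorem one_step_cube {g : Grid X} (S : Sys g ι) (k : ℕ) (x : X) (G : X → ℝ) :
    ∃ m : ι →₀ ℝ, (∀ i, |dot (g.cube k x) (G - bF S m) (S.a i)| ≤ S.W (g.cube k x) i) ∧
      dot (g.cube k x) (G - bF S m) (G - bF S m) + bW S (g.cube k x) m ≤
        dot (g.cube k x) G G := by
  obtain ⟨β, hβ, hb⟩ := S.nondeg k x
  set Q := g.cube k x with hQ
  obtain ⟨m, h1, h2⟩ := one_step (fun i => toE Q (S.a i)) (fun i => S.W Q i) β hβ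
    (fun i => S.W_nonneg _ _) (fun i => by rw [norm_toE_sq]; exact hb i) (toE Q G)
  have hmap : bsum (fun i => toE Q (S.a i)) m = toE Q (bF S m) :=
    (map_bsum (toE Q) _ m).symm
  rw [hmap, ← map_sub] at h2
  rw [norm_toE_sq, norm_toE_sq] at h2
  refine ⟨m, fun i => ?_, h2⟩
  have := h1 i
  rwa [hmap, ← map_sub, inner_toE] at this

/-- The births-only process. -/
structure Proc {g : Grid X} (S : Sys g ι) (n : ℕ) (F : X → ℝ) where
  /-- the uniform part at scale `k`; `G (n+1) = F` -/
  G : ℕ → X → ℝ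
  /-- the births at scale `k` -/
  B : ℕ → Finset X → (ι →₀ ℝ)
  top : G (n + 1) = F
  step : ∀ k ≤ n, ∀ x, G k x = G (k + 1) x - bF S (B k (g.cube k x)) x
  unif : ∀ k ≤ n, ∀ x i, |dot (g.cube k x) (G k) (S.a i)| ≤ S.W (g.cube k x) i
  energy : ∀ k ≤ n, ∀ x, dot (g.cube k x) (G k) (G k) + bW S (g.cube k x) (B k (g.cube k x)) ≤
    dot (g.cube k x) (G (k + 1)) (G (k + 1))

theorem exists_proc {g : Grid X} (S : Sys g ι) (n : ℕ) (F : X → ℝ) : Nonempty (Proc S n F) := by
  classical
  -- a choice of births for every cube of scale `k` and every function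
  have hch : ∀ k : ℕ, ∀ G : X → ℝ, ∃ m : Finset X → (ι →₀ ℝ), ∀ x,
      (∀ i, |dot (g.cube k x) (G - bF S (m (g.cube k x))) (S.a i)| ≤ S.W (g.cube k x) i) ∧
      dot (g.cube k x) (G - bF S (m (g.cube k x))) (G - bF S (m (g.cube k x))) +
        bW S (g.cube k x) (m (g.cube k x)) ≤ dot (g.cube k x) G G := by
    intro k G
    have h : ∀ Q : Finset X, ∃ m : ι →₀ ℝ, ∀ x, g.cube k x = Q →
        (∀ i, |dot Q (G - bF S m) (S.a i)| ≤ S.W Q i) ∧
        dot Q (G - bF S m) (G - bF S m) + bW S Q m ≤ dot Q G G := by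
      intro Q
      by_cases hQ : ∃ x, g.cube k x = Q
      · obtain ⟨x, rfl⟩ := hQ
        obtain ⟨m, hm⟩ := one_step_cube S k x G
        exact ⟨m, fun _ _ => hm⟩
      · exact ⟨0, fun x hx => absurd ⟨x, hx⟩ hQ⟩
    choose m hm using h
    exact ⟨m, fun x => hm _ x rfl⟩
  choose m hm using hch
  -- one global step
  let T : ℕ → (X → ℝ) → (X → ℝ) := fun k G x => G x - bF S (m k G (g.cube k x)) x
  -- `P j` is the function at scale `n + 1 - j`
  let P : ℕ → (X → ℝ) := fun j => Nat.rec F (fun i Gi => T (n - i) Gi) j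
  have hP0 : P 0 = F := rfl
  have hPs : ∀ j, P (j + 1) = T (n - j) (P j) := fun j => rfl
  have hG : ∀ k ≤ n, P (n + 1 - k) = T k (P (n + 1 - (k + 1))) := by
    intro k hk
    have h1 : n + 1 - k = (n - k) + 1 := by omega
    have h2 : n + 1 - (k + 1) = n - k := by omega
    have h3 : n - (n - k) = k := by omega
    rw [h1, h2, hPs, h3]
  have hcong : ∀ k G x, ∀ y ∈ g.cube k x, T k G y = (G - bF S (m k G (g.cube k x))) y := by
    intro k G x y hy
    show G y - bF S (m k G (g.cube k y)) y = _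
    rw [g.eq_of_mem k x y hy]; rfl
  refine ⟨⟨fun k => P (n + 1 - k), fun k Q => m k (P (n + 1 - (k + 1))) Q, ?_, ?_, ?_, ?_⟩⟩
  · show P (n + 1 - (n + 1)) = F
    rw [Nat.sub_self]
    exact hP0
  · intro k hk x
    show P (n + 1 - k) x = _
    rw [hG k hk]
  · intro k hk x i
    show |dot (g.cube k x) (P (n + 1 - k)) (S.a i)| ≤ _
    rw [hG k hk, dot_congr (hcong k _ x) (fun _ _ => rfl)]
    exact (hm k _ x).1 i
  · intro k hk x
    show dot (g.cube k x) (P (n + 1 - k)) (P (n + 1 - k)) + _ ≤ _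
    rw [hG k hk, dot_congr (hcong k _ x) (hcong k _ x)]
    exact (hm k _ x).2

section grid

variable (g : Grid X)

theorem Grid.sub_le {k l : ℕ} (h : k ≤ l) (x : X) : g.cube k x ⊆ g.cube l x := by
  induction l, h using Nat.le_induction with
  | base => exact subset_rfl
  | succ l _ ih => exact ih.trans (g.sub l x)

theorem Grid.cube_subset {k l : ℕ} (h : k ≤ l) {x y : X} (hy : y ∈ g.cube l x) :
    g.cube k y ⊆ g.cube l x := by
  rw [← g.eq_of_mem l x y hy]
  exact g.sub_le h y

/-- Comparison of sums over a cube from comparison on the subcubes. -/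
theorem Grid.sum_le_sum_of_cubes {k l : ℕ} (h : k ≤ l) (x : X) (f e : X → ℝ)
    (hfe : ∀ y ∈ g.cube l x, ∑ z ∈ g.cube k y, f z ≤ ∑ z ∈ g.cube k y, e z) :
    ∑ z ∈ g.cube l x, f z ≤ ∑ z ∈ g.cube l x, e z := by
  classical
  have hmap : ∀ z ∈ g.cube l x, g.cube k z ∈ (g.cube l x).image (g.cube k) :=
    fun z hz => Finset.mem_image_of_mem _ hz
  have hfib : ∀ y ∈ g.cube l x,
      (g.cube l x).filter (fun z => g.cube k z = g.cube k y) = g.cube k y := by
    intro y hy
    ext z
    simp only [Finset.mem_filter]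
    constructor
    · rintro ⟨_, hz⟩
      rw [← hz]; exact g.mem k z
    · intro hz
      exact ⟨g.cube_subset h hy hz, g.eq_of_mem k y z hz⟩
  rw [← Finset.sum_fiberwise_of_maps_to hmap f, ← Finset.sum_fiberwise_of_maps_to hmap e]
  refine Finset.sum_le_sum fun Q hQ => ?_
  obtain ⟨y, hy, rfl⟩ := Finset.mem_image.mp hQ
  rw [hfib y hy]
  exact hfe y hy

end grid

namespace Proc

variable {g : Grid X} {S : Sys g ι} {n : ℕ} {F : X → ℝ} (P : Proc S n F)

/-- Uniformity at all coarser scales. -/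
theorem unif_coarse {k l : ℕ} (hk : k ≤ n) (hl : k ≤ l) (x : X) (i : ι) :
    |dot (g.cube l x) (P.G k) (S.a i)| ≤ S.W (g.cube l x) i := by
  induction l, hl using Nat.le_induction generalizing x with
  | base => exact P.unif k hk x i
  | succ l _ ih => exact S.inherit l x i _ fun y _ => ih y

/-- Density of the weighted mass of births at scale `j`. -/
noncomputable def dens (j : ℕ) (x : X) : ℝ :=
  bW S (g.cube j x) (P.B j (g.cube j x)) / (g.cube j x).card

theorem dens_nonneg (j : ℕ) (x : X) : 0 ≤ P.dens j x :=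
  div_nonneg (bW_nonneg S _ _) (Nat.cast_nonneg _)

theorem sum_dens (j : ℕ) (x : X) :
    ∑ z ∈ g.cube j x, P.dens j z = bW S (g.cube j x) (P.B j (g.cube j x)) := by
  have h : ∀ z ∈ g.cube j x, P.dens j z = P.dens j x := by
    intro z hz
    unfold dens
    rw [g.eq_of_mem j x z hz]
  rw [Finset.sum_congr rfl h, Finset.sum_const, nsmul_eq_mul]
  unfold dens
  have : (0 : ℝ) < (g.cube j x).card := by
    exact_mod_cast Finset.card_pos.mpr ⟨x, g.mem j x⟩
  field_simp

/-- Energy accounting on a cube of scale `l' ≥ l`. -/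
theorem energy_window {k l l' : ℕ} (hkl : k ≤ l) (hl : l ≤ n + 1) (hll : l ≤ l') (x : X) :
    dot (g.cube l' x) (P.G k) (P.G k) + ∑ j ∈ Finset.Ico k l, ∑ z ∈ g.cube l' x, P.dens j z ≤
      dot (g.cube l' x) (P.G l) (P.G l) := by
  induction l, hkl using Nat.le_induction with
  | base => simp
  | succ l hkl ih =>
    have ih' := ih (by omega) (by omega)
    have h1 : dot (g.cube l' x) (P.G l) (P.G l) + ∑ z ∈ g.cube l' x, P.dens l z ≤
        dot (g.cube l' x) (P.G (l + 1)) (P.G (l + 1)) := by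
      unfold dot
      rw [← Finset.sum_add_distrib]
      refine g.sum_le_sum_of_cubes (by omega : l ≤ l') x _ _ fun y _ => ?_
      rw [Finset.sum_add_distrib, P.sum_dens]
      exact P.energy l (by omega) y
    rw [Finset.sum_Ico_succ_top hkl]
    linarith

/-- Energy accounting from `F` on cubes of scale `≥ n`. -/
theorem energy_window' {l' : ℕ} (hll : n ≤ l') (x : X) :
    dot (g.cube l' x) (P.G 0) (P.G 0) + ∑ j ∈ Finset.range (n + 1), ∑ z ∈ g.cube l' x, P.dens j z ≤
      dot (g.cube l' x) F F := by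
  have h1 := P.energy_window (k := 0) (l := n) (l' := l') (Nat.zero_le _) (by omega) hll x
  have h2 : dot (g.cube l' x) (P.G n) (P.G n) + ∑ z ∈ g.cube l' x, P.dens n z ≤
      dot (g.cube l' x) F F := by
    have e : dot (g.cube l' x) F F = dot (g.cube l' x) (P.G (n + 1)) (P.G (n + 1)) := by
      rw [P.top]
    rw [e]
    unfold dot
    rw [← Finset.sum_add_distrib]
    refine g.sum_le_sum_of_cubes hll x _ _ fun y _ => ?_
    rw [Finset.sum_add_distrib, P.sum_dens]
    exact P.energy n le_rfl y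
  rw [Finset.sum_range_succ, Finset.range_eq_Ico]
  linarith

/-- The births at scale `j` as a function. -/
noncomputable def birth (j : ℕ) (x : X) : ℝ := bF S (P.B j (g.cube j x)) x

theorem G_eq_add_births {k l : ℕ} (hkl : k ≤ l) (hl : l ≤ n + 1) (x : X) :
    P.G l x = P.G k x + ∑ j ∈ Finset.Ico k l, P.birth j x := by
  induction l, hkl using Nat.le_induction with
  | base => simp
  | succ l hkl ih =>
    rw [Finset.sum_Ico_succ_top hkl, ← add_assoc, ← ih (by omega)]
    have := P.step l (by omega) x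
    unfold birth
    linarith

theorem abs_dot_birth_le {k j l' : ℕ} (hk : k ≤ n) (hkj : k ≤ j) (hj : j ≤ l') (x : X) :
    |dot (g.cube l' x) (P.G k) (P.birth j)| ≤ ∑ z ∈ g.cube l' x, P.dens j z := by
  have hcube : ∀ y, |dot (g.cube j y) (P.G k) (P.birth j)| ≤ ∑ z ∈ g.cube j y, P.dens j z := by
    intro y
    rw [P.sum_dens]
    have h1 : dot (g.cube j y) (P.G k) (P.birth j) =
        dot (g.cube j y) (P.G k) (bF S (P.B j (g.cube j y))) := by
      refine dot_congr (fun _ _ => rfl) fun z hz => ?_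
      unfold birth
      rw [g.eq_of_mem j y z hz]
    rw [h1, ← inner_toE]
    have h2 : toE (g.cube j y) (bF S (P.B j (g.cube j y))) =
        bsum (fun i => toE (g.cube j y) (S.a i)) (P.B j (g.cube j y)) :=
      map_bsum _ _ _
    rw [h2]
    refine abs_inner_bsum_le (fun i => ?_) _
    rw [inner_toE]
    exact P.unif_coarse hk hkj y i
  rw [abs_le]
  constructor
  · rw [neg_le]
    have := g.sum_le_sum_of_cubes hj x (fun z => -(P.G k z * P.birth j z)) (P.dens j)
      (fun y _ => by
        rw [Finset.sum_neg_distrib]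
        have := (abs_le.mp (hcube y)).1
        unfold dot at this
        linarith)
    rw [Finset.sum_neg_distrib] at this
    exact this
  · exact g.sum_le_sum_of_cubes hj x (fun z => P.G k z * P.birth j z) (P.dens j)
      (fun y _ => (abs_le.mp (hcube y)).2)

/-- **Window inequality** on every cube of scale at least `l`. -/
theorem window {k l l' : ℕ} (hkl : k ≤ l) (hl : l ≤ n + 1) (hll : l ≤ l') (x : X) :
    dot (g.cube l' x) (P.G l - P.G k) (P.G l - P.G k) ≤
      3 * (dot (g.cube l' x) (P.G l) (P.G l) - dot (g.cube l' x) (P.G k) (P.G k)) := by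
  rcases Nat.eq_or_lt_of_le hkl with rfl | hlt
  · simp [dot]
  have hk : k ≤ n := by omega
  set Q := g.cube l' x with hQ
  set D : X → ℝ := fun z => ∑ j ∈ Finset.Ico k l, P.birth j z with hD
  have hG : P.G l = P.G k + D := by
    funext z; exact P.G_eq_add_births hkl hl z
  have hin : |dot Q (P.G k) D| ≤ ∑ j ∈ Finset.Ico k l, ∑ z ∈ Q, P.dens j z := by
    have h1 : dot Q (P.G k) D = ∑ j ∈ Finset.Ico k l, dot Q (P.G k) (P.birth j) := by
      unfold dot
      rw [Finset.sum_comm]
      refine Finset.sum_congr rfl fun z _ => ?_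
      rw [hD, Finset.mul_sum]
    rw [h1]
    refine (Finset.abs_sum_le_sum_abs _ _).trans (Finset.sum_le_sum fun j hj => ?_)
    rw [Finset.mem_Ico] at hj
    exact P.abs_dot_birth_le hk hj.1 (by omega) x
  have hen := P.energy_window hkl hl hll x
  have := window_sq_le (g := toE Q (P.G l)) (l := toE Q (P.G k)) (d := toE Q D)
    (c := ∑ j ∈ Finset.Ico k l, ∑ z ∈ Q, P.dens j z) (by rw [hG, map_add])
    (by rw [inner_toE]; exact hin) (by rw [norm_toE_sq, norm_toE_sq]; exact hen)
  rwa [← map_sub, norm_toE_sq, norm_toE_sq, norm_toE_sq] at this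

/-- Monotonicity of the energy on cubes. -/
theorem energy_mono {k l l' : ℕ} (hkl : k ≤ l) (hl : l ≤ n + 1) (hll : l ≤ l') (x : X) :
    dot (g.cube l' x) (P.G k) (P.G k) ≤ dot (g.cube l' x) (P.G l) (P.G l) := by
  have := P.energy_window hkl hl hll x
  have h0 : 0 ≤ ∑ j ∈ Finset.Ico k l, ∑ z ∈ g.cube l' x, P.dens j z :=
    Finset.sum_nonneg fun j _ => Finset.sum_nonneg fun z _ => P.dens_nonneg j z
  linarith

/-- The energy on a cube of scale `≥ n + 1` (or `n`) controls everything: if `F` vanishes on the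
cube then so does every `G k`. -/
theorem G_eq_zero {k l' : ℕ} (hk : k ≤ n + 1) (hll : n ≤ l') (x : X)
    (hF : ∀ z ∈ g.cube l' x, F z = 0) : ∀ z ∈ g.cube l' x, P.G k z = 0 := by
  rcases Nat.lt_or_ge n k with hkn | hkn
  · have : k = n + 1 := by omega
    subst this
    rw [P.top]; exact hF
  have h1 : dot (g.cube l' x) (P.G k) (P.G k) ≤ 0 := by
    have h2 := P.energy_mono (k := k) (l := n) (l' := l') hkn (by omega) hll x
    have h3 : dot (g.cube l' x) (P.G n) (P.G n) ≤ dot (g.cube l' x) (P.G (n + 1)) (P.G (n + 1)) := by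
      unfold dot
      refine g.sum_le_sum_of_cubes hll x _ _ fun y _ => ?_
      have := P.energy n le_rfl y
      have h0 := bW_nonneg S (g.cube n y) (P.B n (g.cube n y))
      unfold dot at this
      linarith
    have h4 : dot (g.cube l' x) (P.G (n + 1)) (P.G (n + 1)) = 0 := by
      rw [P.top]
      exact Finset.sum_eq_zero fun z hz => by rw [hF z hz, zero_mul]
    linarith
  intro z hz
  have h2 := (Finset.sum_eq_zero_iff_of_nonneg (fun z _ => mul_self_nonneg (P.G k z))).mp
    (le_antisymm h1 (dot_self_nonneg _ _)) z hz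
  exact mul_self_eq_zero.mp h2

/-- The structured part at scale `k`. -/
def St (k : ℕ) (x : X) : ℝ := F x - P.G k x

theorem St_eq {k : ℕ} (hk : k ≤ n + 1) (x : X) :
    P.St k x = ∑ j ∈ Finset.Ico k (n + 1), P.birth j x := by
  have := P.G_eq_add_births hk le_rfl x
  rw [P.top] at this
  unfold St
  linarith

/-- A linear functional living on the cube `cube k z`, applied to the structured part. -/
theorem abs_lin_St_le {k : ℕ} (hk : k ≤ n + 1) (z : X) (Λ : (X → ℝ) →ₗ[ℝ] ℝ)
    (hΛ : ∀ f f' : X → ℝ, (∀ y ∈ g.cube k z, f y = f' y) → Λ f = Λ f') :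
    |Λ (P.St k)| ≤ ∑ j ∈ Finset.Ico k (n + 1),
      (P.B j (g.cube j z)).sum fun i c => |c| * |Λ (S.a i)| := by
  have h1 : Λ (P.St k) =
      ∑ j ∈ Finset.Ico k (n + 1), Λ (bF S (P.B j (g.cube j z))) := by
    rw [← map_sum]
    refine hΛ _ _ fun y hy => ?_
    rw [P.St_eq hk y, Finset.sum_apply]
    refine Finset.sum_congr rfl fun j hj => ?_
    unfold birth
    rw [Finset.mem_Ico] at hj
    rw [g.eq_of_mem j z y (g.sub_le hj.1 z hy)]
  rw [h1]
  refine (Finset.abs_sum_le_sum_abs _ _).trans (Finset.sum_le_sum fun j _ => ?_)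
  have h2 : Λ (bF S (P.B j (g.cube j z))) = bsum (fun i => Λ (S.a i)) (P.B j (g.cube j z)) :=
    map_bsum Λ S.a _
  rw [h2]
  unfold bsum Finsupp.sum
  refine (Finset.abs_sum_le_sum_abs _ _).trans (Finset.sum_le_sum fun i _ => ?_)
  simp only [smul_eq_mul, abs_mul, le_refl]

/-- **Cost accounting.** `c k z i ≥ 0` is the density at `z` of the cost of the atom `i` on the
node `cube k z`. If every atom costs at most `P0` times its weight below every cube, then the
structured parts cost at most `P0` times the energy. -/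
theorem cost_le (c : ℕ → X → ι → ℝ) (P0 : ℝ)
    (h : ∀ j ≤ n, ∀ y i, ∑ k ∈ Finset.range (j + 1), ∑ z ∈ g.cube j y, c k z i ≤
      P0 * S.W (g.cube j y) i) (hP0 : 0 ≤ P0) (l' : ℕ) (hll : n ≤ l') (x : X) :
    ∑ k ∈ Finset.range (n + 1), ∑ z ∈ g.cube l' x, ∑ j ∈ Finset.Ico k (n + 1),
      ((P.B j (g.cube j z)).sum fun i b => |b| * c k z i) ≤
        P0 * (dot (g.cube l' x) F F - dot (g.cube l' x) (P.G 0) (P.G 0)) := by
  classical
  -- rearrange
  have h1 : ∑ k ∈ Finset.range (n + 1), ∑ z ∈ g.cube l' x, ∑ j ∈ Finset.Ico k (n + 1),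
      ((P.B j (g.cube j z)).sum fun i b => |b| * c k z i) =
      ∑ j ∈ Finset.range (n + 1), ∑ z ∈ g.cube l' x, ∑ k ∈ Finset.range (j + 1),
        ((P.B j (g.cube j z)).sum fun i b => |b| * c k z i) := by
    have e1 : ∀ k ∈ Finset.range (n + 1), ∑ z ∈ g.cube l' x, ∑ j ∈ Finset.Ico k (n + 1),
        ((P.B j (g.cube j z)).sum fun i b => |b| * c k z i) =
        ∑ j ∈ Finset.range (n + 1), if k ≤ j then ∑ z ∈ g.cube l' x,
          ((P.B j (g.cube j z)).sum fun i b => |b| * c k z i) else 0 := by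
      intro k _
      rw [Finset.sum_comm, ← Finset.sum_filter]
      refine Finset.sum_congr ?_ fun _ _ => rfl
      ext j; simp only [Finset.mem_Ico, Finset.mem_filter, Finset.mem_range]; omega
    have e2 : ∀ j ∈ Finset.range (n + 1), ∑ z ∈ g.cube l' x, ∑ k ∈ Finset.range (j + 1),
        ((P.B j (g.cube j z)).sum fun i b => |b| * c k z i) =
        ∑ k ∈ Finset.range (n + 1), if k ≤ j then ∑ z ∈ g.cube l' x,
          ((P.B j (g.cube j z)).sum fun i b => |b| * c k z i) else 0 := by
      intro j hj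
      rw [Finset.sum_comm, ← Finset.sum_filter]
      refine Finset.sum_congr ?_ fun _ _ => rfl
      ext k; simp only [Finset.mem_filter, Finset.mem_range] at hj ⊢; omega
    rw [Finset.sum_congr rfl e1, Finset.sum_congr rfl e2, Finset.sum_comm]
  rw [h1]
  -- each scale of births
  have h2 : ∀ j ∈ Finset.range (n + 1), ∑ z ∈ g.cube l' x, ∑ k ∈ Finset.range (j + 1),
      ((P.B j (g.cube j z)).sum fun i b => |b| * c k z i) ≤
      ∑ z ∈ g.cube l' x, P0 * P.dens j z := by
    intro j hj
    rw [Finset.mem_range] at hj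
    refine g.sum_le_sum_of_cubes (by omega : j ≤ l') x _ _ fun y _ => ?_
    rw [← Finset.mul_sum, P.sum_dens]
    have e : ∑ z ∈ g.cube j y, ∑ k ∈ Finset.range (j + 1),
        ((P.B j (g.cube j z)).sum fun i b => |b| * c k z i) =
        ∑ i ∈ (P.B j (g.cube j y)).support, |P.B j (g.cube j y) i| *
          ∑ k ∈ Finset.range (j + 1), ∑ z ∈ g.cube j y, c k z i := by
      have e3 : ∀ z ∈ g.cube j y, ∑ k ∈ Finset.range (j + 1),
          ((P.B j (g.cube j z)).sum fun i b => |b| * c k z i) =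
          ∑ i ∈ (P.B j (g.cube j y)).support, |P.B j (g.cube j y) i| *
            ∑ k ∈ Finset.range (j + 1), c k z i := by
        intro z hz
        rw [g.eq_of_mem j y z hz]
        unfold Finsupp.sum
        rw [Finset.sum_comm]
        exact Finset.sum_congr rfl fun i _ => by rw [Finset.mul_sum]
      rw [Finset.sum_congr rfl e3, Finset.sum_comm]
      refine Finset.sum_congr rfl fun i _ => ?_
      rw [← Finset.mul_sum, Finset.sum_comm]
    rw [e]
    unfold bW bcost Finsupp.sum
    rw [Finset.mul_sum]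
    refine Finset.sum_le_sum fun i _ => ?_
    calc |P.B j (g.cube j y) i| * ∑ k ∈ Finset.range (j + 1), ∑ z ∈ g.cube j y, c k z i
        ≤ |P.B j (g.cube j y) i| * (P0 * S.W (g.cube j y) i) :=
          mul_le_mul_of_nonneg_left (h j (by omega) y i) (abs_nonneg _)
      _ = P0 * (|P.B j (g.cube j y) i| * S.W (g.cube j y) i) := by ring
  refine (Finset.sum_le_sum h2).trans ?_
  have h3 := P.energy_window' hll x
  have h4 : ∑ j ∈ Finset.range (n + 1), ∑ z ∈ g.cube l' x, P0 * P.dens j z =
      P0 * ∑ j ∈ Finset.range (n + 1), ∑ z ∈ g.cube l' x, P.dens j z := by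
    rw [Finset.mul_sum]
    exact Finset.sum_congr rfl fun j _ => by rw [Finset.mul_sum]
  rw [h4]
  exact mul_le_mul_of_nonneg_left (by linarith) hP0

end Proc

end Vale.Agent.P141.H315
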